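import Mathlib
import Vale.Agent.Lib.P248.helper1.ConeAux

namespace Vale.Agent.Lib.P248.H14

open MeasureTheory Set
open scoped ENNReal
open Vale.Agent.Lib.P227 Vale.Agent.Lib.P248.H1
open scoped Pointwise

theorem jL_continuous_zero {n : ℕ} :
    Continuous (fun y : EuclideanSpace ℝ (Fin (n + 1)) => y 0) :=
  (continuous_apply (0 : Fin (n + 1))).comp (PiLp.continuous_ofLp 2 _)

theorem jL_isClosed_polarModel {n : ℕ} (D : Set (EuclideanSpace ℝ (Fin n)))
    (ζ : EuclideanSpace ℝ (Fin n)) (τ : ℝ) : IsClosed (polarModel D ζ τ) := by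
  have hc0 := jL_continuous_zero (n := n)
  have h1 : IsClosed {y : EuclideanSpace ℝ (Fin (n + 1)) | -1 / τ ≤ y 0} :=
    isClosed_le continuous_const hc0
  have h2 : IsClosed {y : EuclideanSpace ℝ (Fin (n + 1)) | y 0 ≤ 1 / (1 - τ)} :=
    isClosed_le hc0 continuous_const
  have h3 : IsClosed {y : EuclideanSpace ℝ (Fin (n + 1)) |
      ∀ d ∈ D, inner ℝ (d - ζ) (etail y) ≤ 1 + τ * y 0} := by
    have hE : {y : EuclideanSpace ℝ (Fin (n + 1)) |
        ∀ d ∈ D, inner ℝ (d - ζ) (etail y) ≤ 1 + τ * y 0} =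
        ⋂ d ∈ D, {y | inner ℝ (d - ζ) (etail y) ≤ 1 + τ * y 0} := by
      ext y
      simp
    rw [hE]
    refine isClosed_biInter fun d _ => ?_
    exact isClosed_le (continuous_const.inner continuous_etail)
      (continuous_const.add (continuous_const.mul hc0))
  have hE : polarModel D ζ τ = {y | -1 / τ ≤ y 0} ∩ ({y | y 0 ≤ 1 / (1 - τ)} ∩
      {y | ∀ d ∈ D, inner ℝ (d - ζ) (etail y) ≤ 1 + τ * y 0}) := rfl
  rw [hE]
  exact h1.inter (h2.inter h3)

theorem jL_sec_subset {n : ℕ} (D : Set (EuclideanSpace ℝ (Fin n)))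
    (ζ : EuclideanSpace ℝ (Fin n)) (τ s : ℝ) (hs : 0 < 1 + τ * s) :
    sec s (polarModel D ζ τ) ⊆ (1 + τ * s) • polarAt D ζ := by
  intro w hw
  obtain ⟨-, -, h3⟩ := hw
  have hw' : ∀ d ∈ D, inner ℝ (d - ζ) w ≤ 1 + τ * s := by
    intro d hd
    have := h3 d hd
    rwa [etail_ecomb, ecomb_zero] at this
  rw [Set.mem_smul_set]
  refine ⟨(1 + τ * s)⁻¹ • w, ?_, ?_⟩
  · intro d hd
    rw [inner_smul_right]
    have := hw' d hd
    rw [inv_mul_le_iff₀ hs]
    linarith
  · rw [smul_smul, mul_inv_cancel₀ hs.ne', one_smul]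

theorem jL_sec_empty {n : ℕ} (D : Set (EuclideanSpace ℝ (Fin n)))
    (ζ : EuclideanSpace ℝ (Fin n)) (τ s : ℝ) (hs : s ∉ Icc (-1 / τ) (1 / (1 - τ))) :
    sec s (polarModel D ζ τ) = ∅ := by
  ext w
  simp only [mem_empty_iff_false, iff_false]
  rintro ⟨h1, h2, -⟩
  rw [ecomb_zero] at h1 h2
  exact hs ⟨h1, h2⟩

theorem jL_pos {τ s : ℝ} (hτ0 : 0 < τ) (hs : -1 / τ < s) : 0 < 1 + τ * s := by
  have h := mul_lt_mul_of_pos_left hs hτ0
  have h2 : τ * (-1 / τ) = -1 := by
    field_simp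
  linarith

theorem jL_integral {n : ℕ} (τ : ℝ) (hτ0 : 0 < τ) (hτ1 : τ < 1) :
    ∫ s in (-1 / τ)..(1 / (1 - τ)), (1 + τ * s) ^ n =
      1 / ((n + 1) * τ * (1 - τ) ^ (n + 1)) := by
  have h1τ : 0 < 1 - τ := by linarith
  have hcont : Continuous fun s : ℝ => (1 + τ * s) ^ n := by fun_prop
  have hderiv : ∀ x ∈ uIcc (-1 / τ) (1 / (1 - τ)),
      HasDerivAt (fun s : ℝ => (1 + τ * s) ^ (n + 1) / (((n : ℝ) + 1) * τ))
        ((1 + τ * x) ^ n) x := by
    intro x _
    have h1 : HasDerivAt (fun s : ℝ => 1 + τ * s) τ x := by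
      simpa using ((hasDerivAt_id x).const_mul τ).const_add 1
    have h2 : HasDerivAt (fun s : ℝ => (1 + τ * s) ^ (n + 1))
        (((n + 1 : ℕ) : ℝ) * (1 + τ * x) ^ n * τ) x := by
      have h := h1.fun_pow (n + 1)
      simpa using h
    have h3 := h2.div_const (((n : ℝ) + 1) * τ)
    have hn : ((n : ℝ) + 1) ≠ 0 := by positivity
    have hτ : τ ≠ 0 := hτ0.ne'
    have e : ((n + 1 : ℕ) : ℝ) * (1 + τ * x) ^ n * τ / (((n : ℝ) + 1) * τ) =
        (1 + τ * x) ^ n := by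
      push_cast
      field_simp
    rw [e] at h3
    exact h3
  rw [intervalIntegral.integral_eq_sub_of_hasDerivAt hderiv (hcont.intervalIntegrable _ _)]
  have e1 : 1 + τ * (-1 / τ) = 0 := by
    field_simp
    ring
  have e2 : 1 + τ * (1 / (1 - τ)) = 1 / (1 - τ) := by
    field_simp
    ring
  rw [e1, e2]
  have hn : ((n : ℝ) + 1) ≠ 0 := by positivity
  simp only [ne_eq, Nat.add_eq_zero_iff, one_ne_zero, and_false, not_false_eq_true, zero_pow,
    zero_div, sub_zero]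
  rw [one_div, inv_pow]
  have h1τ' : (1 - τ) ^ (n + 1) ≠ 0 := pow_ne_zero _ h1τ.ne'
  have hτ : τ ≠ 0 := hτ0.ne'
  field_simp

theorem vol_polarModel_le {n : ℕ} (D : Set (EuclideanSpace ℝ (Fin n)))
    (ζ : EuclideanSpace ℝ (Fin n)) (τ : ℝ) (hτ0 : 0 < τ) (hτ1 : τ < 1) :
    volume (polarModel D ζ τ) ≤
      ENNReal.ofReal (1 / ((n + 1) * τ * (1 - τ) ^ (n + 1))) * volume (polarAt D ζ) := by
  have h1τ : 0 < 1 - τ := by linarith
  have hab : -1 / τ ≤ 1 / (1 - τ) := by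
    have h1 : -1 / τ < 0 := div_neg_of_neg_of_pos (by norm_num) hτ0
    have h2 : 0 < 1 / (1 - τ) := by positivity
    linarith
  have hmeas : MeasurableSet (polarModel D ζ τ) :=
    (jL_isClosed_polarModel D ζ τ).measurableSet
  rw [volume_eq_lintegral_sec hmeas]
  have hbound : ∀ᵐ s : ℝ, volume (sec s (polarModel D ζ τ)) ≤
      (Ioc (-1 / τ) (1 / (1 - τ))).indicator
        (fun s => ENNReal.ofReal ((1 + τ * s) ^ n) * volume (polarAt D ζ)) s := by
    have hne : ∀ᵐ s : ℝ, s ≠ -1 / τ := by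
      have h0 : (volume : Measure ℝ) {-1 / τ} = 0 := Real.volume_singleton
      exact compl_mem_ae_iff.mpr h0
    filter_upwards [hne] with s hsa
    by_cases hs : s ∈ Ioc (-1 / τ) (1 / (1 - τ))
    · rw [indicator_of_mem hs]
      have hpos : 0 < 1 + τ * s := jL_pos hτ0 hs.1
      calc volume (sec s (polarModel D ζ τ))
          ≤ volume ((1 + τ * s) • polarAt D ζ) := measure_mono (jL_sec_subset D ζ τ s hpos)
        _ = ENNReal.ofReal ((1 + τ * s) ^ n) * volume (polarAt D ζ) := by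
          rw [Measure.addHaar_smul, finrank_euclideanSpace_fin,
            abs_of_nonneg (pow_nonneg hpos.le n)]
    · rw [indicator_of_notMem hs]
      have hs' : s ∉ Icc (-1 / τ) (1 / (1 - τ)) := by
        intro h
        exact hs ⟨lt_of_le_of_ne h.1 (Ne.symm hsa), h.2⟩
      rw [jL_sec_empty D ζ τ s hs', measure_empty]
  calc ∫⁻ s : ℝ, volume (sec s (polarModel D ζ τ))
      ≤ ∫⁻ s : ℝ, (Ioc (-1 / τ) (1 / (1 - τ))).indicator
          (fun s => ENNReal.ofReal ((1 + τ * s) ^ n) * volume (polarAt D ζ)) s :=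
        lintegral_mono_ae hbound
    _ = ∫⁻ s in Ioc (-1 / τ) (1 / (1 - τ)),
          ENNReal.ofReal ((1 + τ * s) ^ n) * volume (polarAt D ζ) :=
        lintegral_indicator measurableSet_Ioc _
    _ = (∫⁻ s in Ioc (-1 / τ) (1 / (1 - τ)), ENNReal.ofReal ((1 + τ * s) ^ n)) *
          volume (polarAt D ζ) := by
        rw [lintegral_mul_const]
        exact (by fun_prop : Measurable fun s : ℝ => ENNReal.ofReal ((1 + τ * s) ^ n))
    _ = ENNReal.ofReal (1 / ((n + 1) * τ * (1 - τ) ^ (n + 1))) * volume (polarAt D ζ) := by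
        congr 1
        have hcont : Continuous fun s : ℝ => (1 + τ * s) ^ n := by fun_prop
        have hint : IntegrableOn (fun s : ℝ => (1 + τ * s) ^ n)
            (Ioc (-1 / τ) (1 / (1 - τ))) :=
          (hcont.integrableOn_Icc).mono_set Ioc_subset_Icc_self
        have hnn : 0 ≤ᵐ[volume.restrict (Ioc (-1 / τ) (1 / (1 - τ)))]
            fun s : ℝ => (1 + τ * s) ^ n := by
          refine (ae_restrict_iff' measurableSet_Ioc).mpr (ae_of_all _ fun s hs => ?_)
          exact pow_nonneg (jL_pos hτ0 hs.1).le n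
        rw [← ofReal_integral_eq_lintegral_ofReal hint hnn]
        congr 1
        rw [← intervalIntegral.integral_of_le hab]
        exact jL_integral τ hτ0 hτ1

end Vale.Agent.Lib.P248.H14
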