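import Mathlib
import Vale.Agent.Lib.P248.helper1.ConeDefs

namespace Vale.Agent.Lib.P248.H14Y

open MeasureTheory Set
open scoped ENNReal
open Vale.Agent.Lib.P248.H1

theorem jS_inv_ge (t : ℝ) (ht : |t| < 1) : 1 + t ≤ (1 - t)⁻¹ := by
  have h2 : t < 1 := (abs_lt.mp ht).2
  have hp : 0 < 1 - t := by linarith
  rw [← one_div, le_div_iff₀ hp]
  nlinarith [sq_nonneg t]

theorem jS_pointwise (t : ℝ) (ht : |t| < 1) (k : ℕ) :
    2 ≤ (1 - t)⁻¹ ^ k + (1 + t)⁻¹ ^ k := by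
  have h1 : -1 < t := (abs_lt.mp ht).1
  have h2 : t < 1 := (abs_lt.mp ht).2
  have hp : 0 < 1 - t := by linarith
  have hq : 0 < 1 + t := by linarith
  have ha : 1 + t ≤ (1 - t)⁻¹ := jS_inv_ge t ht
  have hb : 1 - t ≤ (1 + t)⁻¹ := by
    have h := jS_inv_ge (-t) (by rwa [abs_neg])
    have e1 : 1 + -t = 1 - t := by ring
    have e2 : 1 - -t = 1 + t := by ring
    rwa [e1, e2] at h
  have h3 : 1 + (k : ℝ) * t ≤ (1 + t) ^ k := one_add_mul_le_pow (by linarith) k
  have h4 : 1 + (k : ℝ) * (-t) ≤ (1 + (-t)) ^ k := one_add_mul_le_pow (by linarith) k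
  have h5 : (1 + t) ^ k ≤ (1 - t)⁻¹ ^ k := pow_le_pow_left₀ hq.le ha k
  have h6 : (1 - t) ^ k ≤ (1 + t)⁻¹ ^ k := pow_le_pow_left₀ hp.le hb k
  have h7 : (1 + (-t)) ^ k = (1 - t) ^ k := by
    congr 1
  rw [h7] at h4
  linarith

theorem volume_le_lintegral_symm {m : ℕ} (z : EuclideanSpace ℝ (Fin m))
    (T : Set (EuclideanSpace ℝ (Fin m))) (hT : MeasurableSet T) (hTs : ∀ y ∈ T, -y ∈ T)
    (habs : ∀ y ∈ T, |inner ℝ z y| < 1) :
    volume T ≤ ∫⁻ y in T, ENNReal.ofReal ((1 - inner ℝ z y)⁻¹ ^ (m + 1)) := by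
  have hgm : Measurable (fun y : EuclideanSpace ℝ (Fin m) =>
      ENNReal.ofReal ((1 - inner ℝ z y)⁻¹ ^ (m + 1))) := by
    have hc : Continuous fun y : EuclideanSpace ℝ (Fin m) => inner ℝ z y :=
      continuous_const.inner continuous_id
    exact ((measurable_const.sub hc.measurable).inv.pow_const _).ennreal_ofReal
  have hneg : ∫⁻ y in T, ENNReal.ofReal ((1 - inner ℝ z (-y))⁻¹ ^ (m + 1)) =
      ∫⁻ y in T, ENNReal.ofReal ((1 - inner ℝ z y)⁻¹ ^ (m + 1)) := by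
    have hmp := Measure.measurePreserving_neg (volume : Measure (EuclideanSpace ℝ (Fin m)))
    have hemb : MeasurableEmbedding
        (Neg.neg : EuclideanSpace ℝ (Fin m) → EuclideanSpace ℝ (Fin m)) :=
      (MeasurableEquiv.neg _).measurableEmbedding
    have h := hmp.setLIntegral_comp_preimage_emb hemb
      (fun y : EuclideanSpace ℝ (Fin m) => ENNReal.ofReal ((1 - inner ℝ z y)⁻¹ ^ (m + 1))) T
    have hpre : (Neg.neg : EuclideanSpace ℝ (Fin m) → EuclideanSpace ℝ (Fin m)) ⁻¹' T = T := by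
      ext y
      constructor
      · intro hy
        have h' := hTs (-y) hy
        simpa using h'
      · intro hy
        exact hTs y hy
    rw [hpre] at h
    exact h
  have hsum : ∫⁻ y in T, (ENNReal.ofReal ((1 - inner ℝ z y)⁻¹ ^ (m + 1)) +
      ENNReal.ofReal ((1 - inner ℝ z (-y))⁻¹ ^ (m + 1))) =
      2 * ∫⁻ y in T, ENNReal.ofReal ((1 - inner ℝ z y)⁻¹ ^ (m + 1)) := by
    rw [lintegral_add_left hgm, hneg, two_mul]
  have hge : (2 : ℝ≥0∞) * volume T ≤
      ∫⁻ y in T, (ENNReal.ofReal ((1 - inner ℝ z y)⁻¹ ^ (m + 1)) +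
        ENNReal.ofReal ((1 - inner ℝ z (-y))⁻¹ ^ (m + 1))) := by
    calc (2 : ℝ≥0∞) * volume T = ∫⁻ _ in T, (2 : ℝ≥0∞) := by
          rw [setLIntegral_const]
      _ ≤ ∫⁻ y in T, (ENNReal.ofReal ((1 - inner ℝ z y)⁻¹ ^ (m + 1)) +
            ENNReal.ofReal ((1 - inner ℝ z (-y))⁻¹ ^ (m + 1))) := by
          refine setLIntegral_mono' hT (fun y hy => ?_)
          have ht := habs y hy
          have hpt := jS_pointwise (inner ℝ z y) ht (m + 1)
          have e : inner ℝ z (-y) = - inner ℝ z y := inner_neg_right z y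
          have hp : 0 < 1 - inner ℝ z y := by linarith [(abs_lt.mp ht).2]
          have hq : 0 < 1 + inner ℝ z y := by linarith [(abs_lt.mp ht).1]
          rw [e, sub_neg_eq_add, ← ENNReal.ofReal_add (by positivity) (by positivity)]
          calc (2 : ℝ≥0∞) = ENNReal.ofReal 2 := by simp
            _ ≤ _ := ENNReal.ofReal_le_ofReal hpt
  rw [hsum] at hge
  exact (ENNReal.mul_le_mul_iff_right (by norm_num) (by norm_num)).mp hge

end Vale.Agent.Lib.P248.H14Y
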